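import Vale.Agent.P321.Main

/-!
# P321: worst-case trace reconstruction needs superpolynomially many traces
-/

open Filter

namespace Vale.Agent.Results.P321.Superpolynomial

open Vale.Agent.P321

/-- For every fixed deletion probability, trace reconstruction is possible from finitely many
traces, and the least sufficient number exceeds every power of the length eventually. -/
theorem result : ∀ q : ℝ, 0 < q → q < 1 →
    (∀ n : ℕ, ∃ m : ℕ, CanReconstruct q n m) ∧
      ∀ C : ℕ, ∀ᶠ n : ℕ in atTop, (n : ℝ) ^ C ≤ (sampleComplexity q n : ℝ) :=
  fun q hq0 hq1 =>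
    ⟨exists_canReconstruct q hq0 hq1, sampleComplexity_superpolynomial q hq0 hq1⟩

end Vale.Agent.Results.P321.Superpolynomial
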